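import Vale.Agent.P325h37.Main

namespace Vale.Agent.Results.P325.TransitiveGraphs

open Vale.Agent.P325h37 Finset

/-- Unique Games with one constraint for each arc (u, v) in E, the finite group Γ acts on the
vertices, preserves E and is transitive on E; P u is a walk in E of length at most D from the
root r to u. Random translate of the propagation tree: at most (2 D + 1) times the number of
constraints violated by any assignment x. -/
theorem result : ∀ (V L Γ : Type) [Fintype V] [DecidableEq V] [DecidableEq L] [Group Γ]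
    [Fintype Γ] [MulAction Γ V] (E : Finset (V × V)),
    (∀ g : Γ, ∀ e ∈ E, (g • e.1, g • e.2) ∈ E) →
    (∀ e ∈ E, ∀ f ∈ E, ∃ g : Γ, (g • e.1, g • e.2) = f) →
    ∀ (r : V) (P : V → List V) (D : ℕ),
    (∀ u, endOf r (P u) = u ∧ (∀ e ∈ arcs r (P u), e ∈ E) ∧ (P u).length ≤ D) →
    ∀ (π : V → V → Equiv.Perm L) (x : V → L),
      ∑ g : Γ, viol π E (cand π r P g (x (g • r)))
        ≤ (2 * D + 1) * (Fintype.card Γ * viol π E x) ∧
      (∃ (g : Γ) (a : L), viol π E (cand π r P g a) ≤ (2 * D + 1) * viol π E x) ∧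
      (∀ ε : ℝ, (viol π E x : ℝ) ≤ ε * E.card →
        ∃ (g : Γ) (a : L), (viol π E (cand π r P g a) : ℝ) ≤ (2 * D + 1) * ε * E.card) := by
  intro V L Γ _ _ _ _ _ _ E hE hT r P D hP π x
  obtain ⟨g, hg⟩ := exists_good E hE hT r P D hP π x
  refine ⟨main E hE hT r P D hP π x, ⟨g, x (g • r), hg⟩, fun ε hε => ⟨g, x (g • r), ?_⟩⟩
  have h1 : (viol π E (cand π r P g (x (g • r))) : ℝ) ≤ (2 * D + 1) * (viol π E x : ℝ) := by
    exact_mod_cast hg
  have h2 : (2 * (D : ℝ) + 1) * (viol π E x : ℝ) ≤ (2 * D + 1) * (ε * E.card) :=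
    mul_le_mul_of_nonneg_left hε (by positivity)
  linarith

end Vale.Agent.Results.P325.TransitiveGraphs
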